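import Mathlib
import Vale.Agent.Lib.P201.Trinomial

namespace Vale.Agent.Results.P201.CoefficientCriteria

/-- Both factors of a zero product in the group algebra of a torsion-free group have at least
three terms of maximal weight for every valuation twisted by a character, and no coefficient
weakly dominating the others for any real absolute value. -/
theorem result {G : Type*} [Group G]
    (hG : ∀ g : G, ∀ n : ℕ, 0 < n → g ^ n = 1 → g = 1)
    {K : Type*} [Field K] (α β : MonoidAlgebra K G) (hα : α ≠ 0) (hβ : β ≠ 0) (h : α * β = 0)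
    {Γ₀ : Type*} [LinearOrderedCommGroupWithZero Γ₀] (v : Valuation K Γ₀) (ψ : G →* Γ₀)
    (abv : AbsoluteValue K ℝ) :
    ∀ γ ∈ ({α, β} : Set (MonoidAlgebra K G)),
      (∃ g₁ g₂ g₃ : G, g₁ ≠ g₂ ∧ g₁ ≠ g₃ ∧ g₂ ≠ g₃ ∧
        ∀ g ∈ ({g₁, g₂, g₃} : Set G), γ.coeff g ≠ 0 ∧
          ∀ g' : G, v (γ.coeff g') * ψ g' ≤ v (γ.coeff g) * ψ g) ∧
      (∀ g : G, 2 * abv (γ.coeff g) < ∑ g' ∈ γ.coeff.support, abv (γ.coeff g')) :=
  Vale.Agent.Lib.P201.coefficient_criteria hG α β hα hβ h v ψ abv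

end Vale.Agent.Results.P201.CoefficientCriteria
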