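import Mathlib
import Vale.Agent.Lib.P201.helper60.FreeKernel
import Vale.Agent.Lib.P201.helper60.CyclicSeries

/-!
# P201 : the zero-divisor property passes up extensions with free kernel

`G` a group, `N` a normal subgroup of `G` such that `K[G ⧸ N]` has no zero divisors.  Then `K[G]`
has no zero divisors in each of the following cases.

* `K` a commutative ring and `N` a free group (of any rank).
* `K` any ring and `N` infinite cyclic, generated by an element `z` of infinite order (`N` need
  not be central: elements of `G` may invert `z`).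
* `K` any ring and `N` has a finite chain of subgroups `⊥ = H 0 ≤ H 1 ≤ ... ≤ H k = N`, all
  normal in `G`, where `H (i + 1)` is generated by `H i` and an element `z i` no nonzero power of
  which lies in `H i` (every `H (i + 1) ⧸ H i` is infinite cyclic).
-/

namespace Vale.Agent.Results.P201.FreeKernel

universe u v

theorem result :
    (∀ (K : Type u) [CommRing K] (G : Type v) [Group G] (N : Subgroup G) [N.Normal]
      [IsFreeGroup N],
      (∀ a b : MonoidAlgebra K (G ⧸ N), a * b = 0 → a = 0 ∨ b = 0) →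
      ∀ a b : MonoidAlgebra K G, a * b = 0 → a = 0 ∨ b = 0) ∧
    (∀ (K : Type u) [Ring K] (G : Type v) [Group G] (N : Subgroup G) [N.Normal] (z : G),
      N = Subgroup.zpowers z → ¬ IsOfFinOrder z →
      (∀ a b : MonoidAlgebra K (G ⧸ N), a * b = 0 → a = 0 ∨ b = 0) →
      ∀ a b : MonoidAlgebra K G, a * b = 0 → a = 0 ∨ b = 0) ∧
    (∀ (K : Type u) [Ring K] (G : Type v) [Group G] (N : Subgroup G) [N.Normal]
      (k : ℕ) (H : ℕ → Subgroup G) (z : ℕ → G),
      H 0 = ⊥ → H k = N → (∀ i, i ≤ k → (H i).Normal) →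
      (∀ i, i < k → H (i + 1) = H i ⊔ Subgroup.zpowers (z i)) →
      (∀ i, i < k → ∀ n : ℤ, z i ^ n ∈ H i → n = 0) →
      (∀ a b : MonoidAlgebra K (G ⧸ N), a * b = 0 → a = 0 ∨ b = 0) →
      ∀ a b : MonoidAlgebra K G, a * b = 0 → a = 0 ∨ b = 0) :=
  ⟨fun _ _ _ _ N _ _ hQ => Vale.Agent.Lib.P201.Free.free_kernel_isFreeGroup N hQ,
    fun _ _ _ _ N _ z hN hz hQ =>
      Vale.Agent.Lib.P201.H60.mul_eq_zero_of_quotient z N hN hz hQ,
    fun K _ G _ N _ k H z h0 hk hnorm hsup hinf hQ =>
      Vale.Agent.Lib.P201.H60.mul_eq_zero_of_series K k G H z N h0 hk hnorm hsup hinf hQ⟩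

end Vale.Agent.Results.P201.FreeKernel
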