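import Mathlib
import Vale.Agent.Lib.P201.Trinomial

namespace Vale.Agent.Results.P201.Trinomial

/-- Three-term zero divisors in group algebras of torsion-free groups have very special
coefficients: all ratios are integral over the integers (roots of unity in positive
characteristic) and no coefficient dominates the other two for any absolute value. -/
theorem result {G : Type*} [Group G]
    (hG : ∀ g : G, ∀ n : ℕ, 0 < n → g ^ n = 1 → g = 1)
    {K : Type*} [Field K] (α β : MonoidAlgebra K G)
    (hα : α.coeff.support.card = 3) (hβ : β ≠ 0) (h : α * β = 0 ∨ β * α = 0) :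
    (∀ g ∈ α.coeff.support, ∀ g' ∈ α.coeff.support, IsIntegral ℤ (α.coeff g / α.coeff g')) ∧
    (∀ p : ℕ, p ≠ 0 → CharP K p → ∀ g ∈ α.coeff.support, ∀ g' ∈ α.coeff.support,
        ∃ n : ℕ, 0 < n ∧ (α.coeff g / α.coeff g') ^ n = 1) ∧
    (∀ abv : AbsoluteValue K ℝ, ∀ g : G,
        2 * abv (α.coeff g) < ∑ g' ∈ α.coeff.support, abv (α.coeff g')) :=
  Vale.Agent.Lib.P201.trinomial hG α β hα hβ h

end Vale.Agent.Results.P201.Trinomial
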