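import Mathlib
import Vale.Agent.Lib.P201.Trinomial

namespace Vale.Agent.Results.P201.TrinomialRat

/-- Over the rationals, a three-term element of the group algebra of a torsion-free group whose
coefficients do not all have the same absolute value is neither a left nor a right zero
divisor. -/
theorem result {G : Type*} [Group G]
    (hG : ∀ g : G, ∀ n : ℕ, 0 < n → g ^ n = 1 → g = 1)
    (α : MonoidAlgebra ℚ G) (hα : α.coeff.support.card = 3)
    (hne : ∃ g ∈ α.coeff.support, ∃ g' ∈ α.coeff.support, |α.coeff g| ≠ |α.coeff g'|)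
    (β : MonoidAlgebra ℚ G) (hβ : β ≠ 0) : α * β ≠ 0 ∧ β * α ≠ 0 :=
  Vale.Agent.Lib.P201.trinomial_rat hG α hα hne β hβ

end Vale.Agent.Results.P201.TrinomialRat
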